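import Mathlib
import Vale.Agent.Lib.P322.Lin
import Vale.Agent.Lib.P322.Cov

namespace Vale.Agent.Lib.P322

open Finset

lemma avg_half_add (n : ℕ) (f g : (Fin n → Bool) → ℝ) :
    (avg n f + avg n g) / 2 = avg n (fun x => 1 / 2 * f x + 1 / 2 * g x) := by
  rw [avg_lin]; ring

lemma avg_congr_fun (n : ℕ) (f g : (Fin n → Bool) → ℝ) (h : ∀ x, f x = g x) :
    avg n f = avg n g := by
  have : f = g := funext h
  rw [this]

/-- one induction step for `moments` -/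
lemma moments_step (n : ℕ)
    (ih : ∀ (m0 n0 : ℝ) (a b : Fin n → ℝ), (∀ j, a j * b j = 0) →
      avg n (fun x => (m0 + lin n a x) ^ 2 * (n0 + lin n b x) ^ 2) =
        (m0 ^ 2 + nsq n a) * (n0 ^ 2 + nsq n b) ∧
      avg n (fun x => (m0 + lin n a x) ^ 4 * (n0 + lin n b x) ^ 2) ≤
        3 * (m0 ^ 2 + nsq n a) ^ 2 * (n0 ^ 2 + nsq n b))
    (m0 n0 : ℝ) (a b : Fin (n + 1) → ℝ) (hab : ∀ j, a j * b j = 0) :
    avg (n + 1) (fun x => (m0 + lin (n + 1) a x) ^ 2 * (n0 + lin (n + 1) b x) ^ 2) =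
        (m0 ^ 2 + nsq (n + 1) a) * (n0 ^ 2 + nsq (n + 1) b) ∧
      avg (n + 1) (fun x => (m0 + lin (n + 1) a x) ^ 4 * (n0 + lin (n + 1) b x) ^ 2) ≤
        3 * (m0 ^ 2 + nsq (n + 1) a) ^ 2 * (n0 ^ 2 + nsq (n + 1) b) := by
  have htail : ∀ j, Fin.tail a j * Fin.tail b j = 0 := fun j => hab j.succ
  have hz : ∀ j : Fin n, (fun _ : Fin n => (0 : ℝ)) j * Fin.tail b j = 0 := fun j => by simp
  have hz' : ∀ j : Fin n, Fin.tail a j * (fun _ : Fin n => (0 : ℝ)) j = 0 := fun j => by simp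
  obtain ⟨I1, I2⟩ := ih m0 n0 (Fin.tail a) (Fin.tail b) htail
  have I3 : avg n (fun x => (n0 + lin n (Fin.tail b) x) ^ 2) = n0 ^ 2 + nsq n (Fin.tail b) := by
    have h := (ih 1 n0 (fun _ => 0) (Fin.tail b) hz).1
    simp only [lin_zero, nsq_zero] at h
    have e : (fun x => (n0 + lin n (Fin.tail b) x) ^ 2) =
        fun x => ((1 : ℝ) + 0) ^ 2 * (n0 + lin n (Fin.tail b) x) ^ 2 := by
      funext x; ring
    rw [e, h]; ring
  have I4 : avg n (fun x => (m0 + lin n (Fin.tail a) x) ^ 2) = m0 ^ 2 + nsq n (Fin.tail a) := by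
    have h := (ih m0 1 (Fin.tail a) (fun _ => 0) hz').1
    simp only [lin_zero, nsq_zero] at h
    have e : (fun x => (m0 + lin n (Fin.tail a) x) ^ 2) =
        fun x => (m0 + lin n (Fin.tail a) x) ^ 2 * ((1 : ℝ) + 0) ^ 2 := by
      funext x; ring
    rw [e, h]; ring
  have I5 : avg n (fun x => (m0 + lin n (Fin.tail a) x) ^ 4) ≤
      3 * (m0 ^ 2 + nsq n (Fin.tail a)) ^ 2 := by
    have h := (ih m0 1 (Fin.tail a) (fun _ => 0) hz').2
    simp only [lin_zero, nsq_zero] at h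
    have e : (fun x => (m0 + lin n (Fin.tail a) x) ^ 4) =
        fun x => (m0 + lin n (Fin.tail a) x) ^ 4 * ((1 : ℝ) + 0) ^ 2 := by
      funext x; ring
    rw [e]
    linarith
  have hu' : 0 ≤ m0 ^ 2 + nsq n (Fin.tail a) := add_nonneg (sq_nonneg _) (nsq_nonneg _ _)
  have hv' : 0 ≤ n0 ^ 2 + nsq n (Fin.tail b) := add_nonneg (sq_nonneg _) (nsq_nonneg _ _)
  rw [avg_succ, avg_succ, nsq_succ, nsq_succ]
  simp only [lin_cons, sgn_true, sgn_false]
  rw [avg_half_add, avg_half_add]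
  rcases mul_eq_zero.mp (hab 0) with h0 | h0
  · -- a 0 = 0
    rw [h0]
    constructor
    · have e : ∀ x : Fin n → Bool,
          1 / 2 * ((m0 + (0 * 1 + lin n (Fin.tail a) x)) ^ 2 *
            (n0 + (b 0 * 1 + lin n (Fin.tail b) x)) ^ 2) +
          1 / 2 * ((m0 + (0 * -1 + lin n (Fin.tail a) x)) ^ 2 *
            (n0 + (b 0 * -1 + lin n (Fin.tail b) x)) ^ 2) =
          (m0 + lin n (Fin.tail a) x) ^ 2 * (n0 + lin n (Fin.tail b) x) ^ 2 +
            b 0 ^ 2 * (m0 + lin n (Fin.tail a) x) ^ 2 := by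
        intro x; ring
      rw [avg_congr_fun n _ _ e, avg_add, avg_mul_left, I1, I4]
      ring
    · have e : ∀ x : Fin n → Bool,
          1 / 2 * ((m0 + (0 * 1 + lin n (Fin.tail a) x)) ^ 4 *
            (n0 + (b 0 * 1 + lin n (Fin.tail b) x)) ^ 2) +
          1 / 2 * ((m0 + (0 * -1 + lin n (Fin.tail a) x)) ^ 4 *
            (n0 + (b 0 * -1 + lin n (Fin.tail b) x)) ^ 2) =
          (m0 + lin n (Fin.tail a) x) ^ 4 * (n0 + lin n (Fin.tail b) x) ^ 2 +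
            b 0 ^ 2 * (m0 + lin n (Fin.tail a) x) ^ 4 := by
        intro x; ring
      rw [avg_congr_fun n _ _ e, avg_add, avg_mul_left]
      have hb0 : 0 ≤ b 0 ^ 2 := sq_nonneg _
      have := mul_le_mul_of_nonneg_left I5 hb0
      nlinarith
  · -- b 0 = 0
    rw [h0]
    constructor
    · have e : ∀ x : Fin n → Bool,
          1 / 2 * ((m0 + (a 0 * 1 + lin n (Fin.tail a) x)) ^ 2 *
            (n0 + (0 * 1 + lin n (Fin.tail b) x)) ^ 2) +
          1 / 2 * ((m0 + (a 0 * -1 + lin n (Fin.tail a) x)) ^ 2 *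
            (n0 + (0 * -1 + lin n (Fin.tail b) x)) ^ 2) =
          (m0 + lin n (Fin.tail a) x) ^ 2 * (n0 + lin n (Fin.tail b) x) ^ 2 +
            a 0 ^ 2 * (n0 + lin n (Fin.tail b) x) ^ 2 := by
        intro x; ring
      rw [avg_congr_fun n _ _ e, avg_add, avg_mul_left, I1, I3]
      ring
    · have e : ∀ x : Fin n → Bool,
          1 / 2 * ((m0 + (a 0 * 1 + lin n (Fin.tail a) x)) ^ 4 *
            (n0 + (0 * 1 + lin n (Fin.tail b) x)) ^ 2) +
          1 / 2 * ((m0 + (a 0 * -1 + lin n (Fin.tail a) x)) ^ 4 *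
            (n0 + (0 * -1 + lin n (Fin.tail b) x)) ^ 2) =
          (m0 + lin n (Fin.tail a) x) ^ 4 * (n0 + lin n (Fin.tail b) x) ^ 2 +
            (6 * a 0 ^ 2 * ((m0 + lin n (Fin.tail a) x) ^ 2 * (n0 + lin n (Fin.tail b) x) ^ 2) +
              a 0 ^ 4 * (n0 + lin n (Fin.tail b) x) ^ 2) := by
        intro x; ring
      rw [avg_congr_fun n _ _ e, avg_add, avg_add, avg_mul_left, avg_mul_left, I1, I3]
      have ha4 : 0 ≤ a 0 ^ 4 := by positivity
      have h1 : 0 ≤ a 0 ^ 4 * (n0 ^ 2 + nsq n (Fin.tail b)) := mul_nonneg ha4 hv'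
      nlinarith

theorem moments : ∀ (n : ℕ) (m0 n0 : ℝ) (a b : Fin n → ℝ), (∀ j, a j * b j = 0) →
    avg n (fun x => (m0 + lin n a x) ^ 2 * (n0 + lin n b x) ^ 2) = (m0 ^ 2 + nsq n a) * (n0 ^ 2 + nsq n b) ∧
    avg n (fun x => (m0 + lin n a x) ^ 4 * (n0 + lin n b x) ^ 2) ≤ 3 * (m0 ^ 2 + nsq n a) ^ 2 * (n0 ^ 2 + nsq n b) := by
  intro n
  induction n with
  | zero =>
    intro m0 n0 a b _
    have hl : ∀ (c : Fin 0 → ℝ) (x : Fin 0 → Bool), lin 0 c x = 0 := by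
      intro c x; simp [lin]
    have hn : ∀ c : Fin 0 → ℝ, nsq 0 c = 0 := by
      intro c; simp [nsq]
    simp only [hl, hn, avg_const, add_zero]
    refine ⟨trivial, ?_⟩
    have : 0 ≤ m0 ^ 4 * n0 ^ 2 := by positivity
    nlinarith
  | succ n ih =>
    intro m0 n0 a b hab
    exact moments_step n ih m0 n0 a b hab

end Vale.Agent.Lib.P322
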